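import Mathlib

/-! Row 264, P8: Fourier coefficients.

`eq_zero_of_fourier`: test with `L : F →L[ℂ] ℂ` (`NormedSpace.eq_zero_of_forall_dual_eq_zero`,
`ContinuousLinearMap.intervalIntegral_comp_comm`); lift the periodic function to `AddCircle (2π)`
(`Function.Periodic.lift`, continuous), `fourierCoeff_eq_intervalIntegral`,
`hasSum_fourier_series_of_summable` (or `has_pointwise_sum_fourier_series_of_summable`).
`circle_coeff_scale`: both sides are `I⁻¹ • ∮ ζ^(-k-1) • Θ (ζ • w)` over the circles of radius `1` and `ε`: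
`Complex.circleIntegral_eq_of_differentiable_on_annulus_off_countable`. -/

set_option autoImplicit false
open Set Filter Topology Metric Complex

namespace Crest.Agent.R264
variable {E F : Type*} [NormedAddCommGroup E] [NormedSpace ℂ E]
  [NormedAddCommGroup F] [NormedSpace ℂ F] [CompleteSpace F]

theorem h72_fourier_scalar {g : ℝ → ℂ} (hg : Continuous g)
    (hp : Function.Periodic g (2 * Real.pi))
    (h : ∀ k : ℤ, ∫ t in (0 : ℝ)..2 * Real.pi, cexp (-(k * t * I)) • g t = 0) (t : ℝ) :
    g t = 0 := by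
  have : Fact (0 < 2 * Real.pi) := ⟨Real.two_pi_pos⟩
  let f : C(AddCircle (2 * Real.pi), ℂ) := ⟨hp.lift, hg.quotient_liftOn' _⟩
  have hf : ∀ x : ℝ, f x = g x := fun x => hp.lift_coe x
  have hc : fourierCoeff f = fun _ => 0 := by
    funext k
    rw [fourierCoeff_eq_intervalIntegral _ _ 0, zero_add]
    have e : ∀ x : ℝ, fourier (-k) (x : AddCircle (2 * Real.pi)) • f x =
        cexp (-(k * x * I)) • g x := fun x => by
      rw [hf, fourier_coe_apply]
      congr 2
      have : (Real.pi : ℂ) ≠ 0 := by exact_mod_cast Real.pi_ne_zero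
      push_cast
      field_simp
    simp only [e, h k, smul_zero]
  have hs := has_pointwise_sum_fourier_series_of_summable (f := f) (by rw [hc]; exact summable_zero)
    (t : AddCircle (2 * Real.pi))
  simp only [hc, zero_smul, hf] at hs
  exact hs.unique hasSum_zero

theorem eq_zero_of_fourier {g : ℝ → F} (hg : Continuous g) (hp : Function.Periodic g (2 * Real.pi))
    (h : ∀ k : ℤ, ∫ t in (0 : ℝ)..2 * Real.pi, cexp (-(k * t * I)) • g t = 0) (t : ℝ) : g t = 0 := by
  refine SeparatingDual.eq_zero_of_forall_dual_eq_zero (R := ℂ) fun L => ?_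
  refine h72_fourier_scalar (g := fun t => L (g t)) (L.continuous.comp hg)
    (fun t => by simp only [hp t]) (fun k => ?_) t
  have hi : IntervalIntegrable (fun t : ℝ => cexp (-(k * t * I)) • g t) MeasureTheory.volume 0
      (2 * Real.pi) := Continuous.intervalIntegrable (by fun_prop) _ _
  have := L.intervalIntegral_comp_comm hi
  simp only [map_smul, h k, map_zero] at this
  exact this

omit [CompleteSpace F] in
theorem h72_circle (Θ : E → F) (k : ℤ) (w : E) {R : ℝ} (hR : 0 < R) :
    (∮ ζ in C(0, R), ζ ^ (-k - 1) • Θ (ζ • w)) = (I * (R : ℂ) ^ (-k)) •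
      ∫ t in (0 : ℝ)..2 * Real.pi, cexp (-(k * t * I)) • Θ (cexp (t * I) • (R : ℂ) • w) := by
  rw [circleIntegral, ← intervalIntegral.integral_smul]
  refine intervalIntegral.integral_congr fun t _ => ?_
  have hR' : (R : ℂ) ≠ 0 := by exact_mod_cast hR.ne'
  have he : cexp (t * I) ≠ 0 := exp_ne_zero _
  simp only [deriv_circleMap, circleMap_zero, smul_smul]
  rw [mul_comm (cexp (t * I)) (R : ℂ)]
  congr 1
  have e : cexp (-(k * t * I)) = cexp (t * I) ^ (-k) := by
    rw [← exp_int_mul]
    congr 1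
    push_cast
    ring
  rw [e, zpow_sub_one₀ (mul_ne_zero hR' he), mul_zpow]
  field_simp

theorem circle_coeff_scale {Θ : E → F} {r : ℝ} (hΘ : DifferentiableOn ℂ Θ (ball 0 r)) (k : ℤ) {w : E}
    (hw : w ∈ ball (0 : E) r) {ε : ℝ} (hε : 0 < ε) (hε1 : ε ≤ 1) :
    ∫ t in (0 : ℝ)..2 * Real.pi, cexp (-(k * t * I)) • Θ (cexp (t * I) • w) =
      (ε : ℂ) ^ (-k) • ∫ t in (0 : ℝ)..2 * Real.pi,
        cexp (-(k * t * I)) • Θ (cexp (t * I) • (ε : ℂ) • w) := by
  have hd : ∀ z : ℂ, z ≠ 0 → ‖z‖ ≤ 1 → DifferentiableAt ℂ (fun ζ : ℂ => ζ ^ (-k - 1) • Θ (ζ • w)) z := by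
    intro z hz hz1
    have hzw : z • w ∈ ball (0 : E) r := by
      rw [mem_ball_zero_iff] at hw ⊢
      rw [norm_smul]
      nlinarith [norm_nonneg w, norm_nonneg z]
    exact (differentiableAt_zpow.2 (Or.inl hz)).smul
      ((hΘ.differentiableAt (isOpen_ball.mem_nhds hzw)).comp z (by fun_prop))
  have key := Complex.circleIntegral_eq_of_differentiable_on_annulus_off_countable (c := 0) hε hε1
    (f := fun ζ : ℂ => ζ ^ (-k - 1) • Θ (ζ • w)) (s := ∅) countable_empty
    (fun z hz => (hd z (by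
      rintro rfl
      exact hz.2 (mem_ball_self hε)) (mem_closedBall_zero_iff.1 hz.1)).continuousAt.continuousWithinAt)
    (fun z hz => hd z (by
      rintro rfl
      exact hz.1.2 (mem_closedBall_self hε.le)) (mem_ball_zero_iff.1 hz.1.1).le)
  rw [h72_circle Θ k w one_pos, h72_circle Θ k w hε] at key
  simp only [ofReal_one, one_zpow, mul_one, one_smul, mul_smul] at key
  exact smul_right_injective F I_ne_zero key

end Crest.Agent.R264
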