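import Crest.Agent.R264.P8.Circ
import Crest.Agent.R264.P8.Fourier

/-! Row 264, P8: the linearisation of a circle action is an injective immersion.

`exists_injOn_of_D` + `exists_inverse_of_injOn` give `R' ∋ y0` and a holomorphic inverse `Θ` on a ball
`ball 0 r ⊆ Ψ '' R'`.  For `y` near `y0` all `θ t y` are in `R'` (compactness of `[0, 2π]`, periodicity,
`generalized_tube_lemma`/`IsCompact.eventually_forall_of_forall_eventually`) and `‖Ψ y‖ < r`, so
`θ t y = Θ (exp (t I) • Ψ y)`.  With `ε B < r`, `ε ≤ 1`: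
`a k y = ∫ exp (-k t I) • θ t y = ε^(-k) • q k (ε • Ψ y)`, `q k w = ∫ exp (-k t I) • Θ (exp (t I) • w)`, near
`y0` (`circle_coeff_scale`); both sides are `Hol U` (`hol_integral`, `hasFDerivAt_integral_param`,
`Hol.post_on`), so this holds on `U`: `coeff_factor`.
If `Ψ y = Ψ y'` all Fourier coefficients of `t ↦ θ t y - θ t y'` vanish; if `D Ψ y v = 0` those of
`t ↦ D (θ t) y v` vanish (`D_integral`, `tD_post`, `continuous_D_param`); `eq_zero_of_fourier` at `0`. -/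

set_option autoImplicit false
open Set Filter Topology Metric Complex

noncomputable section
namespace Crest.Agent.R264.TM
variable {M : TM} {y0 : CN M.N} {θ : ℝ → M.Aut} {Ψ : CN M.N → CN M.n}

theorem Circ.inj_tube (h : M.Circ y0 θ) {R : Set (CN M.N)} (hR : ROpen M.U R) (hy : y0 ∈ R) :
    ∀ᶠ y in 𝓝[M.U] y0, ∀ t ∈ Icc (0 : ℝ) (2 * Real.pi), M.ap (θ t) y ∈ R := by
  obtain ⟨O, hO, rfl⟩ := hR.exists_open
  have key : ∀ᶠ y in 𝓝 y0, ∀ t ∈ Icc (0 : ℝ) (2 * Real.pi), y ∈ M.U → M.ap (θ t) y ∈ O := by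
    refine isCompact_Icc.eventually_forall_of_forall_eventually
      (P := fun y t => y ∈ M.U → M.ap (θ t) y ∈ O) fun t _ => ?_
    have h1 := h.continuousOn (t, y0) ⟨mem_univ _, h.mem⟩
    have h2 : ∀ᶠ z : ℝ × CN M.N in 𝓝[univ ×ˢ M.U] (t, y0), M.ap (θ z.1) z.2 ∈ O :=
      h1.eventually_mem (hO.mem_nhds (by
        dsimp only
        rw [h.fix]
        exact hy.2))
    have h3 := (continuous_swap.tendsto (y0, t)).eventually (eventually_nhdsWithin_iff.1 h2)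
    exact h3.mono fun z hz hU => hz ⟨mem_univ _, hU⟩
  filter_upwards [mem_nhdsWithin_of_mem_nhds key, self_mem_nhdsWithin] with y h1 h2 t ht
  exact ⟨M.ap_mem _ h2, h1 t ht h2⟩

theorem Circ.inj_cont (h : M.Circ y0 θ) (k : ℤ) :
    ContinuousOn (fun z : ℝ × CN M.N => cexp (-(k * z.1 * I)) • M.ap (θ z.1) z.2)
      (univ ×ˢ M.U) :=
  (by fun_prop : Continuous fun z : ℝ × CN M.N => cexp (-(k * z.1 * I))).continuousOn.smul
    h.continuousOn

theorem Circ.inj_cont' (h : M.Circ y0 θ) {y : CN M.N} (hy : y ∈ M.U) :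
    Continuous fun t => M.ap (θ t) y :=
  h.continuousOn.comp_continuous (f := fun t : ℝ => (t, y)) (by fun_prop)
    fun _ => ⟨mem_univ _, hy⟩

theorem Circ.coeff_factor (h : M.Circ y0 θ) (hΨ : Hol M.U Ψ) (hB : ∃ B : ℝ, ∀ y ∈ M.U, ‖Ψ y‖ ≤ B)
    (h0 : Ψ y0 = 0) (heq : ∀ (t : ℝ), ∀ y ∈ M.U, Ψ (M.ap (θ t) y) = cexp (t * I) • Ψ y)
    (hD : ∀ v ∈ M.T y0, M.D Ψ y0 v = 0 → v = 0) (k : ℤ) :
    ∃ (O : Set (CN M.n)) (Q : CN M.n → CN M.N), IsOpen O ∧ MapsTo Ψ M.U O ∧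
      DifferentiableOn ℂ Q O ∧ ∀ y ∈ M.U,
        ∫ t in (0 : ℝ)..2 * Real.pi, cexp (-(k * t * I)) • M.ap (θ t) y = Q (Ψ y) := by
  have hdim : Module.finrank ℂ (CN M.n) = M.n := by simp
  obtain ⟨R, hR, hyR, hRU, hi, hb⟩ := M.exists_injOn_of_D hdim (ROpen.refl _) hΨ h.mem hD
  obtain ⟨ho, Θ, hΘ, hinv, -⟩ := M.exists_inverse_of_injOn hdim hR (hΨ.mono hRU) hi hb
  obtain ⟨r, hr, hrs⟩ := Metric.isOpen_iff.1 ho 0 ⟨y0, hyR, h0⟩
  replace hΘ := hΘ.mono hrs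
  obtain ⟨B, hB⟩ := hB
  have hB0 : 0 ≤ B := (norm_nonneg _).trans (hB y0 h.mem)
  obtain ⟨ε, hε, hε1, hεB⟩ : ∃ ε : ℝ, 0 < ε ∧ ε ≤ 1 ∧ ε * B < r := by
    refine ⟨min 1 (r / (B + 1)), by positivity, min_le_left _ _, ?_⟩
    have h1 : min 1 (r / (B + 1)) * (B + 1) ≤ r :=
      (le_div_iff₀ (by positivity)).1 (min_le_right _ _)
    have h2 : 0 < min 1 (r / (B + 1)) := by positivity
    nlinarith
  have hO : IsOpen {w : CN M.n | (ε : ℂ) • w ∈ ball (0 : CN M.n) r} :=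
    isOpen_ball.preimage (by fun_prop)
  have hm : MapsTo Ψ M.U {w : CN M.n | (ε : ℂ) • w ∈ ball (0 : CN M.n) r} := fun y hy => by
    simp only [mem_setOf_eq, mem_ball_zero_iff, norm_smul, norm_real, Real.norm_of_nonneg hε.le]
    exact (mul_le_mul_of_nonneg_left (hB y hy) hε.le).trans_lt hεB
  have hrot : ∀ (t : ℝ) (w : CN M.n), w ∈ ball (0 : CN M.n) r →
      cexp (t * I) • w ∈ ball (0 : CN M.n) r := fun t w hw => by
    rwa [mem_ball_zero_iff, norm_smul, norm_exp_ofReal_mul_I, one_mul, ← mem_ball_zero_iff]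
  have hQ : DifferentiableOn ℂ (fun w : CN M.n => (ε : ℂ) ^ (-k) • ∫ t in (0 : ℝ)..2 * Real.pi,
      cexp (-(k * t * I)) • Θ (cexp (t * I) • (ε : ℂ) • w))
      {w : CN M.n | (ε : ℂ) • w ∈ ball (0 : CN M.n) r} := fun w hw => by
    refine ((hasFDerivAt_integral_param
      (f := fun (t : ℝ) w => cexp (-(k * t * I)) • Θ (cexp (t * I) • (ε : ℂ) • w)) hO
      (fun t => ?_) ?_ 0 (2 * Real.pi) hw).differentiableAt.fun_const_smul _).differentiableWithinAt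
    · exact (hΘ.comp (f := fun w : CN M.n => cexp (t * I) • (ε : ℂ) • w) (by fun_prop)
        fun w hw => hrot t _ hw).fun_const_smul _
    · exact (by fun_prop : Continuous fun z : ℝ × CN M.n =>
        cexp (-(k * z.1 * I))).continuousOn.smul (hΘ.continuousOn.comp
          (f := fun z : ℝ × CN M.n => cexp (z.1 * I) • (ε : ℂ) • z.2) (by fun_prop)
          fun z hz => hrot z.1 _ hz.2)
  refine ⟨_, _, hO, hm, hQ, ?_⟩
  refine M.eqOn_of_eventuallyEq (ROpen.refl _) M.conn.isPreconnected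
    (M.hol_integral (f := fun (t : ℝ) y => cexp (-(k * t * I)) • M.ap (θ t) y)
      (fun t => (M.hol_ap _).fun_const_smul _) (h.inj_cont k) 0 (2 * Real.pi))
    (hΨ.post_on hO hQ hm) h.mem ?_
  have h2 : ∀ᶠ y in 𝓝[M.U] y0, Ψ y ∈ ball (0 : CN M.n) r :=
    (hΨ.continuousOn y0 h.mem).eventually_mem (by rw [h0]; exact ball_mem_nhds _ hr)
  filter_upwards [h.inj_tube hR hyR, h2, self_mem_nhdsWithin] with y a1 a2 a3
  rw [← circle_coeff_scale hΘ k a2 hε hε1]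
  refine intervalIntegral.integral_congr fun t ht => ?_
  rw [uIcc_of_le (by positivity)] at ht
  rw [← heq t y a3, hinv _ (a1 t ht)]

theorem Circ.inj (h : M.Circ y0 θ) (hΨ : Hol M.U Ψ) (hB : ∃ B : ℝ, ∀ y ∈ M.U, ‖Ψ y‖ ≤ B)
    (h0 : Ψ y0 = 0) (heq : ∀ (t : ℝ), ∀ y ∈ M.U, Ψ (M.ap (θ t) y) = cexp (t * I) • Ψ y)
    (hD : ∀ v ∈ M.T y0, M.D Ψ y0 v = 0 → v = 0) :
    InjOn Ψ M.U ∧ ∀ y ∈ M.U, ∀ v ∈ M.T y, M.D Ψ y v = 0 → v = 0 := by
  refine ⟨fun y hy y' hy' e => ?_, fun y hy v hv e => ?_⟩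
  · have := eq_zero_of_fourier (g := fun t => M.ap (θ t) y - M.ap (θ t) y')
      ((h.inj_cont' hy).sub (h.inj_cont' hy')) (fun t => by simp only [h.periodic t])
      (fun k => ?_) 0
    · rwa [h.zero, M.ap_one hy, M.ap_one hy', sub_eq_zero] at this
    obtain ⟨O, Q, -, -, -, hQ⟩ := h.coeff_factor hΨ hB h0 heq hD k
    have c : Continuous fun t : ℝ => cexp (-(k * t * I)) := by fun_prop
    simp only [smul_sub]
    rw [intervalIntegral.integral_sub ((c.fun_smul (h.inj_cont' hy)).intervalIntegrable _ _)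
      ((c.fun_smul (h.inj_cont' hy')).intervalIntegrable _ _), hQ y hy, hQ y' hy', e, sub_self]
  · have := eq_zero_of_fourier (g := fun t => M.D (M.ap (θ t)) y v)
      (M.continuous_D_param (fun t => M.hol_ap (θ t)) h.continuousOn hy hv)
      (fun t => by simp only [h.periodic t]) (fun k => ?_) 0
    · rwa [h.zero, M.D_ap_one hy hv] at this
    obtain ⟨O, Q, hO, hm, hQd, hQ⟩ := h.coeff_factor hΨ hB h0 heq hD k
    have e1 := M.D_integral (f := fun (t : ℝ) y => cexp (-(k * t * I)) • M.ap (θ t) y)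
      (fun t => (M.hol_ap _).fun_const_smul _) (h.inj_cont k) 0 (2 * Real.pi) hy hv
    have e2 : ∀ t : ℝ, M.D (fun y => cexp (-(k * t * I)) • M.ap (θ t) y) y v =
        cexp (-(k * t * I)) • M.D (M.ap (θ t)) y v := fun t =>
      tD_const_smul _ ((M.hol_ap _).differentiableWithinAt hy) hv
    simp only [e2] at e1
    rw [← e1, TM.D, tD_congr' hy hQ, tD_post (hΨ.differentiableWithinAt hy)
      (hQd.differentiableAt (hO.mem_nhds (hm hy))) hv]
    rw [TM.D] at e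
    rw [e, map_zero]

end Crest.Agent.R264.TM
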