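import Crest.Agent.R264.SCVM

/-! Row 264, P8: integrals of holomorphic maps depending on a real parameter.

Open sets: near `x` and for `t` in a compact interval `f` is bounded on a ball (joint continuity,
compactness), so the derivatives are bounded on a smaller ball (`SCV.norm_fderiv_le`) and
`t ↦ fderiv (f t) x` is continuous (`montel_tendsto` along `𝓝 t`);
`intervalIntegral.hasFDerivAt_integral_of_dominated_of_fderiv_le`.
On `U`: `IsSub.hol_of_chart`, `Chart.D_eq_chart`, `ContinuousLinearMap.intervalIntegral_apply`. -/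

set_option autoImplicit false
open Set Filter Topology Metric Complex

noncomputable section
namespace Crest.Agent.R264
variable {E F : Type*} [NormedAddCommGroup E] [NormedSpace ℂ E] [FiniteDimensional ℂ E]
  [NormedAddCommGroup F] [NormedSpace ℂ F] [CompleteSpace F]

omit [CompleteSpace F] [NormedSpace ℂ F] in
theorem P8Int_bound {f : ℝ → E → F} {O : Set E} (hO : IsOpen O)
    (hc : ContinuousOn (fun p : ℝ × E => f p.1 p.2) (univ ×ˢ O)) {K : Set ℝ} (hK : IsCompact K)
    {x : E} (hx : x ∈ O) :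
    ∃ r > 0, ball x r ⊆ O ∧ ∃ C : ℝ, ∀ t ∈ K, ∀ y ∈ ball x r, ‖f t y‖ ≤ C := by
  have : ProperSpace E := FiniteDimensional.proper ℂ E
  obtain ⟨r, hr, hsub⟩ := nhds_basis_closedBall.mem_iff.1 (hO.mem_nhds hx)
  obtain ⟨C, hC⟩ := (hK.prod (isCompact_closedBall x r)).exists_bound_of_continuousOn
    (hc.mono (prod_mono (subset_univ _) hsub))
  exact ⟨r, hr, ball_subset_closedBall.trans hsub, C, fun t ht y hy =>
    hC (t, y) ⟨ht, ball_subset_closedBall hy⟩⟩

omit [CompleteSpace F] [NormedSpace ℂ F] [NormedSpace ℂ E] [FiniteDimensional ℂ E] in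
theorem P8Int_cont {f : ℝ → E → F} {O : Set E}
    (hc : ContinuousOn (fun p : ℝ × E => f p.1 p.2) (univ ×ˢ O)) {x : E} (hx : x ∈ O) :
    Continuous fun t => f t x :=
  hc.comp_continuous (f := fun t : ℝ => (t, x)) (by fun_prop) fun _ => ⟨mem_univ _, hx⟩

theorem continuous_fderiv_param {f : ℝ → E → F} {O : Set E} (hO : IsOpen O)
    (hf : ∀ t, DifferentiableOn ℂ (f t) O)
    (hc : ContinuousOn (fun p : ℝ × E => f p.1 p.2) (univ ×ˢ O)) {x : E} (hx : x ∈ O) :
    Continuous fun t => fderiv ℂ (f t) x := by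
  refine continuous_iff_continuousAt.2 fun t₀ => ?_
  refine (montel_tendsto (l := 𝓝 t₀) (g := f t₀) hO (fun y hy => ?_)
    (fun y hy => (P8Int_cont hc hy).continuousAt) (a := fun _ => x) hx tendsto_const_nhds).2
  obtain ⟨r, hr, hsub, C, hC⟩ := P8Int_bound hO hc (isCompact_closedBall t₀ 1) hy
  refine ⟨r, hr, C, ?_⟩
  filter_upwards [closedBall_mem_nhds t₀ one_pos] with t ht
  exact ⟨(hf t).mono hsub, hC t ht⟩

theorem hasFDerivAt_integral_param {f : ℝ → E → F} {O : Set E} (hO : IsOpen O)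
    (hf : ∀ t, DifferentiableOn ℂ (f t) O)
    (hc : ContinuousOn (fun p : ℝ × E => f p.1 p.2) (univ ×ˢ O)) (a b : ℝ) {x : E} (hx : x ∈ O) :
    HasFDerivAt (fun y => ∫ t in a..b, f t y) (∫ t in a..b, fderiv ℂ (f t) x) x := by
  obtain ⟨r, hr, hsub, C, hC⟩ := P8Int_bound hO hc (isCompact_uIcc (a := a) (b := b)) hx
  have hr2 : 0 < r / 2 := half_pos hr
  refine intervalIntegral.hasFDerivAt_integral_of_dominated_of_fderiv_le
    (F := fun y t => f t y) (F' := fun y t => fderiv ℂ (f t) y) (s := ball x (r / 2))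
    (bound := fun _ => C / (r / 2)) (ball_mem_nhds x hr2) ?_ ?_ ?_ ?_ intervalIntegrable_const ?_
  · filter_upwards [hO.mem_nhds hx] with y hy
    exact (P8Int_cont hc hy).aestronglyMeasurable
  · exact (P8Int_cont hc hx).intervalIntegrable a b
  · exact (continuous_fderiv_param hO hf hc hx).aestronglyMeasurable
  · refine Eventually.of_forall fun t ht y hy => ?_
    have h1 := SCV.ball_half_subset hy
    exact norm_fderiv_le_of_ball hr2 ((hf t).mono (h1.trans hsub))
      fun z hz => hC t (uIoc_subset_uIcc ht) z (h1 hz)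
  · refine Eventually.of_forall fun t _ y hy => ?_
    exact ((hf t).differentiableAt
      (hO.mem_nhds (hsub (ball_subset_ball (half_le_self hr.le) hy)))).hasFDerivAt

namespace TM
variable (M : TM)

omit [CompleteSpace F] [NormedSpace ℂ F] in
theorem P8Int_chart {f : ℝ → CN M.N → F}
    (hc : ContinuousOn (fun p : ℝ × CN M.N => f p.1 p.2) (univ ×ˢ M.U)) (ch : Chart M.n M.U) :
    ContinuousOn (fun p : ℝ × CN M.n => f p.1 (ch.c p.2)) (univ ×ˢ ch.s) :=
  hc.comp (f := fun p : ℝ × CN M.n => (p.1, ch.c p.2))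
    (continuousOn_fst.prodMk (ch.c_diff.continuousOn.comp continuousOn_snd fun _ hp => hp.2))
    fun _ hp => ⟨mem_univ _, ch.maps hp.2⟩

theorem continuous_D_param {f : ℝ → CN M.N → F} (hf : ∀ t, Hol M.U (f t))
    (hc : ContinuousOn (fun p : ℝ × CN M.N => f p.1 p.2) (univ ×ˢ M.U)) {y v : CN M.N}
    (hy : y ∈ M.U) (hv : v ∈ M.T y) : Continuous fun t => M.D (f t) y v := by
  obtain ⟨ch, u, hu, rfl⟩ := M.chart y hy
  have h1 := continuous_fderiv_param (f := fun t w => f t (ch.c w)) ch.s_open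
    (fun t => ch.hol_comp (hf t)) (M.P8Int_chart hc ch) hu
  have h2 := h1.clm_apply (continuous_const (y := fderiv ℂ ch.l (ch.c u) v))
  refine h2.congr fun t => ?_
  exact (ch.D_eq_chart hu ((hf t).differentiableWithinAt hy) hv).symm

theorem hol_integral {f : ℝ → CN M.N → F} (hf : ∀ t, Hol M.U (f t))
    (hc : ContinuousOn (fun p : ℝ × CN M.N => f p.1 p.2) (univ ×ˢ M.U)) (a b : ℝ) :
    Hol M.U (fun y => ∫ t in a..b, f t y) := by
  refine M.isSub.hol_of_chart fun ch u hu => ?_
  exact (hasFDerivAt_integral_param (f := fun t w => f t (ch.c w)) ch.s_open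
    (fun t => ch.hol_comp (hf t)) (M.P8Int_chart hc ch) a b hu).differentiableAt.differentiableWithinAt

theorem D_integral {f : ℝ → CN M.N → F} (hf : ∀ t, Hol M.U (f t))
    (hc : ContinuousOn (fun p : ℝ × CN M.N => f p.1 p.2) (univ ×ˢ M.U)) (a b : ℝ) {y v : CN M.N}
    (hy : y ∈ M.U) (hv : v ∈ M.T y) :
    M.D (fun y => ∫ t in a..b, f t y) y v = ∫ t in a..b, M.D (f t) y v := by
  obtain ⟨ch, u, hu, rfl⟩ := M.chart y hy
  have h1 := hasFDerivAt_integral_param (f := fun t w => f t (ch.c w)) ch.s_open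
    (fun t => ch.hol_comp (hf t)) (M.P8Int_chart hc ch) a b hu
  have h2 := continuous_fderiv_param (f := fun t w => f t (ch.c w)) ch.s_open
    (fun t => ch.hol_comp (hf t)) (M.P8Int_chart hc ch) hu
  have h3 := ch.D_eq_chart hu ((M.hol_integral hf hc a b).differentiableWithinAt hy) hv
  rw [h1.fderiv, ContinuousLinearMap.intervalIntegral_apply (h2.intervalIntegrable a b)] at h3
  refine h3.trans (intervalIntegral.integral_congr fun t _ => ?_)
  exact (ch.D_eq_chart hu ((hf t).differentiableWithinAt hy) hv).symm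

end TM
end Crest.Agent.R264
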