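import Crest.Agent.R264.P1.FlowB
import Crest.Agent.R264.P8.Int

/-! Row 264, P8: circle actions and their linearisation.

`exists_circ`: `θ t = η (-t)` for the flow `η` of `Z`; `fix`; `w s = D (η s) y0 v` solves `w' = -I • w`
(`hasDerivAt_D`, `D_ap_mem`), so `exp (s I) • w s` is constant.
`periodic`: `cartan_unique` for `θ (2π)`, `aut_ext`.
`exists_lin`: chart at `y0`, `Ψ y = ∫_0^{2π} exp (-t I) • l (θ t y) dt` (`hol_integral`, `D_integral`;
`l` is bounded on `U`); equivariance by `Function.Periodic.intervalIntegral_add_eq` and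
`intervalIntegral.integral_comp_add_right`; `D Ψ y0 v = 2π • fderiv l y0 v`, `fderiv_c_l`;
`Ψ y0 = exp (π I) • Ψ y0`. -/

set_option autoImplicit false
open Set Filter Topology Metric Complex

noncomputable section
namespace Crest.Agent.R264.TM
variable (M : TM)

/-- A circle action with fixed point `y0` and standard linear part. -/
structure Circ (y0 : CN M.N) (θ : ℝ → M.Aut) : Prop where
  mem : y0 ∈ M.U
  cont : Continuous θ
  zero : θ 0 = 1
  add : ∀ s t, θ (s + t) = θ s * θ t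
  fix : ∀ t, M.ap (θ t) y0 = y0
  lin : ∀ (t : ℝ), ∀ v ∈ M.T y0, M.D (M.ap (θ t)) y0 v = cexp (t * I) • v

theorem exists_circ {Z : M.VF} {η : ℝ → M.Aut} (hη : M.IsFlow Z η) {y0 : CN M.N} (hy0 : y0 ∈ M.U)
    (h0 : (Z : CN M.N → CN M.N) y0 = 0)
    (h1 : ∀ v ∈ M.T y0, M.D (Z : CN M.N → CN M.N) y0 v = -I • v) : ∃ θ, M.Circ y0 θ := by
  refine ⟨fun t => η (-t), hy0, hη.continuous.comp continuous_neg, by rw [neg_zero, hη.zero],
    fun s t => by rw [neg_add, hη.add], fun t => hη.fix hy0 h0 _, fun t v hv => ?_⟩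
  have hd : ∀ s : ℝ, HasDerivAt (fun s : ℝ => cexp (s * I) • M.D (M.ap (η s)) y0 v) 0 s := fun s => by
    have h2 := hη.hasDerivAt_D hy0 hv s
    have h3 := M.D_ap_mem (η s) hy0 hv
    rw [hη.fix hy0 h0] at h2 h3
    rw [h1 _ h3] at h2
    refine ((((hasDerivAt_id s).ofReal_comp.mul_const I).cexp).fun_smul h2).congr_deriv ?_
    simp [smul_smul]
  have h2 := is_const_of_deriv_eq_zero (fun s => (hd s).differentiableAt) (fun s => (hd s).deriv)
    (-t) 0
  simp only [hη.zero, M.D_ap_one hy0 hv, ofReal_zero, zero_mul, exp_zero, one_smul] at h2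
  conv_rhs => rw [← h2, smul_smul, ← exp_add]
  simp

variable {M} {y0 : CN M.N} {θ : ℝ → M.Aut}

theorem Circ.periodic (h : M.Circ y0 θ) : Function.Periodic θ (2 * Real.pi) := by
  have h1 : θ (2 * Real.pi) = 1 := M.aut_ext fun x hx => by
    rw [M.ap_one hx]
    refine M.cartan_unique (M.hol_ap _) (fun _ => M.ap_mem _) h.mem (h.fix _) (fun v hv => ?_) x hx
    rw [h.lin _ v hv]
    simp
  exact fun t => by rw [h.add, h1, mul_one]

theorem Circ.continuousOn (h : M.Circ y0 θ) :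
    ContinuousOn (fun z : ℝ × CN M.N => M.ap (θ z.1) z.2) (univ ×ˢ M.U) := M.continuousOn_ap.comp (f := fun z : ℝ × CN M.N => (θ z.1, z.2))
    ((h.cont.comp continuous_fst).prodMk continuous_snd).continuousOn fun _ hz => ⟨trivial, hz.2⟩

theorem Circ.exists_lin (h : M.Circ y0 θ) :
    ∃ Ψ : CN M.N → CN M.n, Hol M.U Ψ ∧ (∃ B : ℝ, ∀ y ∈ M.U, ‖Ψ y‖ ≤ B) ∧ Ψ y0 = 0 ∧
      (∀ (t : ℝ), ∀ y ∈ M.U, Ψ (M.ap (θ t) y) = cexp (t * I) • Ψ y) ∧
      ∀ v ∈ M.T y0, M.D Ψ y0 v = 0 → v = 0 := by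
  obtain ⟨ch, u, hu, e⟩ := M.chart y0 h.mem
  let f : ℝ → CN M.N → CN M.n := fun t y => cexp (-(t * I)) • ch.l (M.ap (θ t) y)
  have hl := fun t => (M.hol_ap (θ t)).post ch.l_diff
  have hf : ∀ t, Hol M.U (f t) := fun t => (hl t).const_smul _
  have hc : ContinuousOn (fun p : ℝ × CN M.N => f p.1 p.2) (univ ×ˢ M.U) :=
    ContinuousOn.smul (f := fun p : ℝ × CN M.N => cexp (-(p.1 * I))) (by fun_prop)
      (ch.l_diff.continuous.comp_continuousOn h.continuousOn)
  have heq : ∀ (t : ℝ), ∀ y ∈ M.U, ∫ s in (0 : ℝ)..2 * Real.pi, f s (M.ap (θ t) y) =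
      cexp (t * I) • ∫ s in (0 : ℝ)..2 * Real.pi, f s y := fun t y hy => by
    have hp : Function.Periodic (fun s => f s y) (2 * Real.pi) := fun s => by
      simp only [f, h.periodic s, ofReal_add, add_mul, exp_neg, exp_add]
      simp
    have h1 := hp.intervalIntegral_add_eq 0 t
    rw [zero_add, add_comm t, ← zero_add t, ← add_assoc, add_zero,
      ← intervalIntegral.integral_comp_add_right] at h1
    rw [h1, ← intervalIntegral.integral_smul]
    congr 1
    funext s
    simp only [f, h.add, M.ap_mul _ _ hy, smul_smul, ← exp_add]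
    congr 2
    push_cast
    ring
  refine ⟨fun y => ∫ s in (0 : ℝ)..2 * Real.pi, f s y, M.hol_integral hf hc _ _, ?_, ?_, heq,
    fun v hv h0 => ?_⟩
  · obtain ⟨B, hB⟩ := M.bdd.isCompact_closure.exists_bound_of_continuousOn
      ch.l_diff.continuous.continuousOn
    refine ⟨_, fun y hy => intervalIntegral.norm_integral_le_of_norm_le_const (C := B)
      fun s _ => ?_⟩
    rw [norm_smul, ← neg_mul, ← ofReal_neg, norm_exp_ofReal_mul_I, one_mul]
    exact hB _ (subset_closure (M.ap_mem _ hy))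
  · have h1 := heq Real.pi y0 h.mem
    rw [h.fix, exp_pi_mul_I, neg_one_smul, self_eq_neg] at h1
    exact h1
  · have h1 : ∀ s, M.D (f s) y0 v = fderiv ℂ ch.l y0 v := fun s => by
      rw [show M.D (f s) y0 v = _ from tD_const_smul _ ((hl s).differentiableWithinAt h.mem) hv,
        tD_post ((M.hol_ap _).differentiableWithinAt h.mem) (ch.l_diff _) hv, h.fix,
        show fderivWithin ℂ _ _ _ v = _ from h.lin s v hv, map_smul, smul_smul, ← exp_add]
      simp
    rw [M.D_integral hf hc _ _ h.mem hv] at h0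
    simp only [h1, intervalIntegral.integral_const, sub_zero, smul_eq_zero, mul_eq_zero,
      OfNat.ofNat_ne_zero, Real.pi_ne_zero, false_or] at h0
    subst e
    rw [← ch.fderiv_c_l hu hv, h0, map_zero]

end Crest.Agent.R264.TM
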