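import Crest.Agent.R264.P1

/-! Row 264, P8: transitivity.

The orbit `O` of `y0` is closed in `U`: if `y ∈ U ∩ closure O`, take a compact neighbourhood `K` of `y` in
`U`; `O ∩ K` is the image of the compact set `isCompact_fib` under `continuous_ap`.  At every point
`z = h y0` of `O` every tangent vector is a value of `g` (`fn_Adg`, `D_ap_inv`/`D_ap_mul`).
`O` is open in `U`: chart with `closedBall u (2r) ⊆ ch.s`, `c u ∈ O`, `w ∈ ball u r`; minimise `‖u' - w‖` over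
the compact set `{u' ∈ closedBall u (2r) | c u' ∈ O}`; the minimiser `u1` is in `ball u (2r)`; if `u1 ≠ w`
take `X` with `X (c u1) = fderiv c u1 (w - u1)` and its flow: `t ↦ l (θ t (c u1))` has derivative `w - u1`
at `0`, so the distance to `w` decreases for small `t > 0` (`Chart.ev_mem` gives `c (l p) = p`).
Connectedness of `U` (`IsPreconnected.induction₂'` or clopen argument). -/

set_option autoImplicit false
open Set Filter Topology Metric Complex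

noncomputable section
namespace Crest.Agent.R264.TM
variable (M : TM)

theorem isCompact_orbit_inter {y0 : CN M.N} (hy0 : y0 ∈ M.U) {K : Set (CN M.N)} (hK : IsCompact K)
    (hKU : K ⊆ M.U) : IsCompact ({y | ∃ h : M.Aut, M.ap h y0 = y} ∩ K) := by
  have e : {y | ∃ h : M.Aut, M.ap h y0 = y} ∩ K =
      (fun h : M.Aut => M.ap h y0) '' {h : M.Aut | M.ap h y0 ∈ K} := by
    ext y
    constructor
    · rintro ⟨⟨h, rfl⟩, hy⟩
      exact ⟨h, hy, rfl⟩
    · rintro ⟨h, hy, rfl⟩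
      exact ⟨⟨h, rfl⟩, hy⟩
  rw [e]
  exact (M.isCompact_fib hK hKU hy0).image (M.continuous_ap hy0)

theorem val_orbit {y0 : CN M.N} (hy0 : y0 ∈ M.U) (hval : ∀ v ∈ M.T y0, ∃ X : M.g, M.fn X y0 = v)
    (h : M.Aut) : ∀ v ∈ M.T (M.ap h y0), ∃ X : M.g, M.fn X (M.ap h y0) = v := by
  intro v hv
  have hz := M.ap_mem h hy0
  have h1 := M.D_ap_mem h⁻¹ hz hv
  have h2 := M.D_ap_inv h⁻¹ hz hv
  rw [M.ap_inv_ap h hy0] at h1 h2
  rw [inv_inv] at h2
  obtain ⟨X, hX⟩ := hval _ h1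
  exact ⟨M.Adg h X, by rw [M.fn_Adg h X hy0, hX, h2]⟩

theorem h49_orbit_open {y0 : CN M.N} (hy0 : y0 ∈ M.U)
    (hval : ∀ v ∈ M.T y0, ∃ X : M.g, M.fn X y0 = v) {z : CN M.N}
    (hz : z ∈ {y | ∃ h : M.Aut, M.ap h y0 = y}) :
    {y | ∃ h : M.Aut, M.ap h y0 = y} ∈ 𝓝[M.U] z := by
  set O : Set (CN M.N) := {y | ∃ h : M.Aut, M.ap h y0 = y} with hO
  have hzU : z ∈ M.U := by
    obtain ⟨h, rfl⟩ := hz
    exact M.ap_mem h hy0
  obtain ⟨ch, u, r, hr, hs, rfl⟩ := M.isSub.exists_ball hzU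
  have hus : u ∈ ch.s := hs (mem_closedBall_self hr.le)
  refine mem_of_superset (ch.image_mem_nhds hus (ball_mem_nhds u (half_pos hr))) ?_
  rintro _ ⟨w, hw, rfl⟩
  have hc : ContinuousOn ch.c (closedBall u r) := ch.c_diff.continuousOn.mono hs
  have hK : IsCompact (ch.c '' closedBall u r) := (isCompact_closedBall u r).image_of_continuousOn hc
  have hKU : ch.c '' closedBall u r ⊆ M.U := by
    rintro _ ⟨a, ha, rfl⟩
    exact ch.maps (hs ha)
  have hS : IsCompact (closedBall u r ∩ ch.c ⁻¹' (O ∩ ch.c '' closedBall u r)) :=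
    (isCompact_closedBall u r).of_isClosed_subset
      (hc.preimage_isClosed_of_isClosed isClosed_closedBall
        (M.isCompact_orbit_inter hy0 hK hKU).isClosed) inter_subset_left
  have huS : u ∈ closedBall u r ∩ ch.c ⁻¹' (O ∩ ch.c '' closedBall u r) :=
    ⟨mem_closedBall_self hr.le, hz, u, mem_closedBall_self hr.le, rfl⟩
  obtain ⟨u1, hu1, hmin⟩ := hS.exists_isMinOn ⟨u, huS⟩
    (f := fun a => ‖a - w‖) (by fun_prop)
  by_cases he : u1 = w
  · rw [← he]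
    exact hu1.2.1
  exfalso
  have hd : 0 < ‖u1 - w‖ := norm_pos_iff.mpr (sub_ne_zero.mpr he)
  have hu1s : u1 ∈ ch.s := hs hu1.1
  have hu1b : u1 ∈ ball u r := by
    have a1 : ‖u1 - w‖ ≤ ‖u - w‖ := hmin huS
    have a2 : ‖u - w‖ < r / 2 := by
      rw [← dist_eq_norm, dist_comm]
      exact hw
    have a3 : ‖u1 - u‖ ≤ ‖u1 - w‖ + ‖u - w‖ := by
      have : u1 - u = (u1 - w) - (u - w) := by abel
      rw [this]
      exact norm_sub_le _ _
    rw [mem_ball, dist_eq_norm]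
    linarith
  obtain ⟨h, hh⟩ := hu1.2.1
  have hv := M.val_orbit hy0 hval h
  rw [hh] at hv
  obtain ⟨X, hX⟩ := hv _ (ch.dc_mem hu1s (w - u1))
  obtain ⟨θ, hθ⟩ := X.2
  have hpU : ch.c u1 ∈ M.U := ch.maps hu1s
  have h0 : M.ap (θ 0) (ch.c u1) = ch.c u1 := by rw [hθ.zero, M.ap_one hpU]
  have hder : HasDerivAt (fun t => M.ap (θ t) (ch.c u1)) (fderiv ℂ ch.c u1 (w - u1)) 0 := by
    have := hθ.deriv _ hpU 0
    rw [h0] at this
    rw [← hX]
    exact this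
  have hγ : HasDerivAt (fun t => ch.l (M.ap (θ t) (ch.c u1))) (w - u1) 0 := by
    have a1 : HasFDerivAt ch.l ((fderiv ℂ ch.l (ch.c u1)).restrictScalars ℝ)
        (M.ap (θ 0) (ch.c u1)) := by
      rw [h0]
      exact (ch.l_diff _).hasFDerivAt.restrictScalars ℝ
    have a2 := a1.comp_hasDerivAt (0 : ℝ) hder
    rw [ContinuousLinearMap.coe_restrictScalars', ch.fderiv_l_c hu1s] at a2
    exact a2
  have hγ0 : ch.l (M.ap (θ 0) (ch.c u1)) = u1 := by rw [h0, ch.left u1 hu1s]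
  have e1 : ∀ᶠ t in 𝓝 (0 : ℝ), ch.l (M.ap (θ t) (ch.c u1)) ∈ ball u r := by
    refine hγ.continuousAt.eventually_mem ?_
    rw [hγ0]
    exact isOpen_ball.mem_nhds hu1b
  have e2 : ∀ᶠ t in 𝓝 (0 : ℝ),
      ch.c (ch.l (M.ap (θ t) (ch.c u1))) = M.ap (θ t) (ch.c u1) := by
    have : Tendsto (fun t => M.ap (θ t) (ch.c u1)) (𝓝 0) (𝓝[M.U] (ch.c u1)) := by
      refine tendsto_nhdsWithin_iff.mpr ⟨?_, Eventually.of_forall fun t => M.ap_mem _ hpU⟩
      have := hder.continuousAt.tendsto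
      rwa [h0] at this
    exact (this.eventually (ch.ev_mem hu1s)).mono fun t ht => ht.2
  have e3 := (hasDerivAt_iff_isLittleO_nhds_zero.mp hγ).def (half_pos hd)
  have e4 : ∀ᶠ t in 𝓝[>] (0 : ℝ), t ∈ Ioo (0 : ℝ) 1 := Ioo_mem_nhdsGT one_pos
  obtain ⟨t, ⟨b1, b2, b3⟩, b4⟩ :=
    (((e1.and (e2.and e3)).filter_mono nhdsWithin_le_nhds).and e4).exists
  rw [zero_add, hγ0, Real.norm_of_nonneg b4.1.le] at b3
  have hmem : ch.l (M.ap (θ t) (ch.c u1)) ∈
      closedBall u r ∩ ch.c ⁻¹' (O ∩ ch.c '' closedBall u r) := by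
    refine ⟨ball_subset_closedBall b1, ?_, _, ball_subset_closedBall b1, rfl⟩
    rw [b2]
    exact ⟨θ t * h, by rw [M.ap_mul _ _ hy0, hh]⟩
  have c1 : ‖u1 - w‖ ≤ ‖ch.l (M.ap (θ t) (ch.c u1)) - w‖ := hmin hmem
  have c2 : ch.l (M.ap (θ t) (ch.c u1)) - w =
      (ch.l (M.ap (θ t) (ch.c u1)) - u1 - t • (w - u1)) + (1 - t) • (u1 - w) := by
    module
  have c3 : ‖(1 - t) • (u1 - w)‖ = (1 - t) * ‖u1 - w‖ := by
    rw [norm_smul, Real.norm_of_nonneg (by linarith [b4.2])]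
  have c4 := norm_add_le (ch.l (M.ap (θ t) (ch.c u1)) - u1 - t • (w - u1)) ((1 - t) • (u1 - w))
  rw [← c2, c3] at c4
  nlinarith [mul_pos b4.1 hd]

theorem transitive {y0 : CN M.N} (hy0 : y0 ∈ M.U)
    (hval : ∀ v ∈ M.T y0, ∃ X : M.g, M.fn X y0 = v) :
    ∀ y ∈ M.U, ∃ h : M.Aut, M.ap h y0 = y := by
  intro y hy
  have key := M.conn.isPreconnected.induction₂'
    (fun a b => (a ∈ {y | ∃ h : M.Aut, M.ap h y0 = y} ↔ b ∈ {y | ∃ h : M.Aut, M.ap h y0 = y}))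
    (fun x hx => by
      by_cases hO : x ∈ {y | ∃ h : M.Aut, M.ap h y0 = y}
      · filter_upwards [M.h49_orbit_open hy0 hval hO] with b hb
        exact ⟨iff_of_true hO hb, iff_of_true hb hO⟩
      · obtain ⟨K, hK, hKU, -, hKn⟩ := M.isSub.exists_compact_nhds hx univ_mem
        have hcl := (M.isCompact_orbit_inter hy0 hK hKU).isClosed
        have h1 : ({y | ∃ h : M.Aut, M.ap h y0 = y} ∩ K)ᶜ ∈ 𝓝 x :=
          hcl.isOpen_compl.mem_nhds fun h => hO h.1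
        filter_upwards [hKn, mem_nhdsWithin_of_mem_nhds h1] with b hb hb'
        have h2 : b ∉ {y | ∃ h : M.Aut, M.ap h y0 = y} := fun h => hb' ⟨h, hb⟩
        exact ⟨iff_of_false hO h2, iff_of_false h2 hO⟩)
    (fun _ _ _ _ _ _ h1 h2 => h1.trans h2) hy0 hy
  exact key.mp ⟨1, M.ap_one hy0⟩

end Crest.Agent.R264.TM
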